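import Mathlib

open scoped ContDiff RealInnerProductSpace

namespace Vale.Agent.P229

/-- The coordinate plane. -/
abbrev E2 := EuclideanSpace ℝ (Fin 2)

/-- Euclidean three-space. -/
abbrev E3 := EuclideanSpace ℝ (Fin 3)

/-- `g` is a `C^n` Riemannian metric on `Ω`: the coefficients `g i j` are of class `C^n` on `Ω`
and the matrix of coefficients is (symmetric and) positive definite at every point of `Ω`. -/
structure IsMetricOn (n : WithTop ℕ∞) (g : E2 → Matrix (Fin 2) (Fin 2) ℝ) (Ω : Set E2) :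
    Prop where
  contDiffOn : ∀ i j, ContDiffOn ℝ n (fun x => g x i j) Ω
  posDef : ∀ x ∈ Ω, (g x).PosDef

/-- `F` is a `C^n` isometric immersion of `(U, g)` into Euclidean three-space. -/
def IsIsometricImmersionOn (n : WithTop ℕ∞) (g : E2 → Matrix (Fin 2) (Fin 2) ℝ) (U : Set E2)
    (F : E2 → E3) : Prop :=
  ContDiffOn ℝ n F U ∧ ∀ x ∈ U, ∀ i j : Fin 2,
    ⟪fderiv ℝ F x (EuclideanSpace.single i 1), fderiv ℝ F x (EuclideanSpace.single j 1)⟫
      = g x i j

/-- `g` is locally `C^n`-realizable at `p`. -/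
def LocallyRealizableAt (n : WithTop ℕ∞) (g : E2 → Matrix (Fin 2) (Fin 2) ℝ) (p : E2) : Prop :=
  ∃ U : Set E2, IsOpen U ∧ p ∈ U ∧ ∃ F : E2 → E3, IsIsometricImmersionOn n g U F

end Vale.Agent.P229
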